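import Mathlib.AlgebraicGeometry.Morphisms.Smooth
import Mathlib.AlgebraicGeometry.Morphisms.ClosedImmersion
import Mathlib.AlgebraicGeometry.Noetherian
import Mathlib.RingTheory.MvPolynomial.Homogeneous
import Mathlib.Data.Complex.Basic
import Vale.Agent.P299.R.Smooth
import Mathlib.AlgebraicGeometry.ProjectiveSpectrum.Proper

/-!
# A connected smooth scheme is integral, a projective scheme is proper
-/

open CategoryTheory AlgebraicGeometry TopologicalSpace

namespace Vale.Agent.P297G93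

open Vale.Agent.P299

attribute [local instance] MvPolynomial.gradedAlgebra

/-- The local rings of a scheme smooth over `ℂ` are domains. -/
theorem isDomain_stalk {S : Scheme.{0}} (f : S ⟶ Spec (CommRingCat.of ℂ)) [Smooth f] (x : S) :
    IsDomain (S.presheaf.stalk x) := by
  obtain ⟨_, ⟨V, hV, rfl⟩, hxV, -⟩ :=
    S.isBasis_affineOpens.exists_subset_of_mem_open (Set.mem_univ x) isOpen_univ
  have hU : IsAffineOpen (⊤ : (Spec (CommRingCat.of ℂ)).Opens) := isAffineOpen_top _
  have e : V ≤ f ⁻¹ᵁ ⊤ := le_top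
  have hs := f.smooth_appLE hU hV e
  algebraize [(f.appLE ⊤ V e).hom]
  let eR : ℂ ≃+* Γ(Spec (CommRingCat.of ℂ), ⊤) :=
    (Scheme.ΓSpecIso (CommRingCat.of ℂ)).symm.commRingCatIsoToRingEquiv
  have : IsRegularRing Γ(Spec (CommRingCat.of ℂ), ⊤) := IsRegularRing.of_ringEquiv eR
  let _ := TopCat.Presheaf.algebra_section_stalk S.presheaf (U := V) ⟨x, hxV⟩
  have := hV.isLocalization_stalk ⟨x, hxV⟩
  have := R.isRegularRing_of_smooth_of_atPrime Γ(Spec (CommRingCat.of ℂ), ⊤) Γ(S, V)
    (S.presheaf.stalk x) (hV.primeIdealOf ⟨x, hxV⟩).asIdeal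
  have : IsRegularLocalRing (S.presheaf.stalk x) := IsRegularLocalRing.of_isRegularRing_of_isLocalRing _
  exact R.isDomain _

/-- A point whose local ring is a domain has an irreducible neighbourhood. -/
theorem exists_nhd {S : Scheme.{0}} [IsLocallyNoetherian S] (x : S)
    [IsDomain (S.presheaf.stalk x)] :
    ∃ (D : Set S) (η : S), IsOpen D ∧ x ∈ D ∧ ∀ y ∈ D, η ⤳ y := by
  obtain ⟨_, ⟨V, hV, rfl⟩, hxV, -⟩ :=
    S.isBasis_affineOpens.exists_subset_of_mem_open (Set.mem_univ x) isOpen_univ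
  have := IsLocallyNoetherian.component_noetherian ⟨V, hV⟩
  let _ := TopCat.Presheaf.algebra_section_stalk S.presheaf (U := V) ⟨x, hxV⟩
  have hl := hV.isLocalization_stalk ⟨x, hxV⟩
  set p := hV.primeIdealOf ⟨x, hxV⟩ with hp
  let I : Ideal Γ(S, V) := RingHom.ker (algebraMap Γ(S, V) (S.presheaf.stalk x))
  have hI : I.IsPrime := RingHom.ker_isPrime _
  obtain ⟨s, hs, h⟩ : ∃ s ∉ p.asIdeal, ∀ a ∈ I, s * a = 0 := by
    refine Submodule.fg_induction (motive := fun (J : Ideal Γ(S, V)) _ => J ≤ I →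
      ∃ s ∉ p.asIdeal, ∀ a ∈ J, s * a = 0) (fun a ha => ?_) (fun J J' _ _ h h' hJ => ?_) I
      (IsNoetherian.noetherian I) le_rfl
    · obtain ⟨s, hs⟩ := (IsLocalization.map_eq_zero_iff p.asIdeal.primeCompl
        (S.presheaf.stalk x) a).1 (ha (Submodule.mem_span_singleton_self a))
      refine ⟨s, s.2, fun b hb => ?_⟩
      obtain ⟨c, rfl⟩ := Submodule.mem_span_singleton.1 hb
      rw [smul_eq_mul, mul_left_comm, hs, mul_zero]
    · obtain ⟨s, hs, h⟩ := h (le_sup_left.trans hJ)
      obtain ⟨s', hs', h'⟩ := h' (le_sup_right.trans hJ)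
      refine ⟨s * s', fun m => (p.2.mem_or_mem m).elim hs hs', fun b hb => ?_⟩
      obtain ⟨c, hc, d, hd, rfl⟩ := Submodule.mem_sup.1 hb
      rw [mul_add, mul_right_comm, h c hc, mul_assoc, h' d hd, zero_mul, mul_zero, add_zero]
  have := hV.isOpenImmersion_fromSpec
  refine ⟨hV.fromSpec '' (PrimeSpectrum.basicOpen s : Set (PrimeSpectrum Γ(S, V))),
    hV.fromSpec ⟨I, hI⟩, hV.fromSpec.isOpenEmbedding.isOpenMap _ (PrimeSpectrum.basicOpen s).2,
    ⟨p, hs, hV.fromSpec_primeIdealOf ⟨x, hxV⟩⟩, ?_⟩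
  rintro _ ⟨q, hq, rfl⟩
  refine Specializes.map ((PrimeSpectrum.le_iff_specializes _ q).1 fun a ha => ?_)
    hV.fromSpec.continuous
  exact (q.2.mem_or_mem ((h a ha).symm ▸ q.asIdeal.zero_mem)).resolve_left hq

/-- A connected locally Noetherian scheme whose local rings are domains is integral. -/
theorem isIntegral_of_stalk (S : Scheme.{0}) [IsLocallyNoetherian S] [ConnectedSpace S]
    [∀ x : S, IsDomain (S.presheaf.stalk x)] : IsIntegral S := by
  have : IsReduced S := isReduced_of_isReduced_stalk S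
  have key : ∀ U : Set S, IsOpen U → U.Nonempty → closure U = Set.univ := fun U hU hne => by
    refine IsClopen.eq_univ ⟨isClosed_closure, isOpen_iff_forall_mem_open.2 fun x hx => ?_⟩
      hne.closure
    obtain ⟨D, η, hD, hxD, h⟩ := exists_nhd x
    obtain ⟨y, hyD, hyU⟩ := mem_closure_iff.1 hx D hD hxD
    exact ⟨D, fun z hz => (h z hz).mem_closed isClosed_closure
      (subset_closure ((h y hyD).mem_open hU hyU)), hD, hxD⟩
  have : PreirreducibleSpace S := ⟨fun U V hU hV hne hne' => by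
    obtain ⟨x, -, hx⟩ := hne'
    obtain ⟨y, hy, hy'⟩ := mem_closure_iff.1
      ((key U hU (hne.mono Set.inter_subset_right)).ge (Set.mem_univ x)) V hV hx
    exact ⟨y, trivial, hy', hy⟩⟩
  have : IrreducibleSpace S := ⟨inferInstance⟩
  exact isIntegral_of_irreducibleSpace_of_isReduced S

/-- A connected scheme smooth over `ℂ` is integral. -/
theorem isIntegral_of_smooth {S : Scheme.{0}} (f : S ⟶ Spec (CommRingCat.of ℂ)) [Smooth f]
    [ConnectedSpace S] : IsIntegral S :=
  have := LocallyOfFiniteType.isLocallyNoetherian f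
  have := isDomain_stalk f
  isIntegral_of_stalk S

/-- The projective space is proper over `ℂ`. -/
theorem isProper_proj (ι : Type) [Finite ι] :
    IsProper (Proj.toSpecZero (MvPolynomial.homogeneousSubmodule ι ℂ) ≫ Spec.map
      (CommRingCat.ofHom (algebraMap ℂ (MvPolynomial.homogeneousSubmodule ι ℂ 0)))) := by
  have : IsScalarTower ℂ (MvPolynomial.homogeneousSubmodule ι ℂ 0) (MvPolynomial ι ℂ) :=
    IsScalarTower.of_algebraMap_eq (R := ℂ) (S := MvPolynomial.homogeneousSubmodule ι ℂ 0)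
      (A := MvPolynomial ι ℂ) fun _ => rfl
  have : Algebra.FiniteType (MvPolynomial.homogeneousSubmodule ι ℂ 0) (MvPolynomial ι ℂ) :=
    Algebra.FiniteType.of_restrictScalars_finiteType ℂ _ _
  have : IsClosedImmersion (Spec.map
      (CommRingCat.ofHom (algebraMap ℂ (MvPolynomial.homogeneousSubmodule ι ℂ 0)))) := by
    refine IsClosedImmersion.spec_of_surjective _ fun a => ⟨a.1.coeff 0, Subtype.ext ?_⟩
    exact (MvPolynomial.totalDegree_eq_zero_iff_eq_C.1
      (Nat.le_zero.1 (MvPolynomial.IsHomogeneous.totalDegree_le a.2))).symm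
  infer_instance

end Vale.Agent.P297G93
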