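import Vale.Agent.P297L93.PwG

/-!
# Morphisms to the projective space and rational functions
-/

set_option linter.all false

open CategoryTheory AlgebraicGeometry Opposite TopologicalSpace Limits

namespace Vale.Agent.P297G93.W

open MvPolynomial HomogeneousLocalization

attribute [local instance] MvPolynomial.gradedAlgebra

variable {ι : Type} [Fintype ι]

theorem toP_pre {T : Scheme.{0}} (s : T ⟶ Spec (CommRingCat.of ℂ)) (j : ι)
    (u : ι → Γ(T, ⊤)) (hu : u j = 1) {d : ℕ} {F : MvPolynomial ι ℂ} (hF : F ∈ gr ι d) :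
    toP s j u hu ⁻¹ᵁ Proj.basicOpen (gr ι) F = T.basicOpen (eval₂Hom (cG s) u F) := by
  have hG : F * X j ∈ gr ι (d + 1) := SetLike.mul_mem_graded hF (X_mem_gr j)
  have h0 : toP s j u hu ⁻¹ᵁ DP j = ⊤ := by
    rw [toP_preimage, hu, Scheme.basicOpen_one]
  have h00 : toP s j u hu ⁻¹ᵁ Proj.basicOpen (gr ι) F =
      toP s j u hu ⁻¹ᵁ Proj.basicOpen (gr ι) (F * X j) := by
    rw [Proj.basicOpen_mul]
    refine Eq.trans ?_ (Scheme.Hom.preimage_inf (toP s j u hu)).symm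
    exact ((congrArg (toP s j u hu ⁻¹ᵁ Proj.basicOpen (gr ι) F ⊓ ·) h0).trans (inf_top_eq _)).symm
  have h1 : chartP j ⁻¹ᵁ Proj.basicOpen (gr ι) (F * X j) =
      PrimeSpectrum.basicOpen (R := Away (gr ι) (X j))
      (Away.isLocalizationElem (X_mem_gr j) hG) :=
    Proj.awayι_preimage_basicOpen (gr ι) (X_mem_gr j) one_pos hG d.succ_pos
  have h2 : toP s j u hu ⁻¹ᵁ Proj.basicOpen (gr ι) (F * X j) =
      toSp (CommRingCat.ofHom (awayHom (cG s) u (X j) (isUnit_X _ u hu))) ⁻¹ᵁ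
        (chartP j ⁻¹ᵁ Proj.basicOpen (gr ι) (F * X j)) := rfl
  rw [h00, h2, h1]
  have h3 := toSp_preimage (CommRingCat.ofHom (awayHom (cG s) u (X j) (isUnit_X _ u hu)))
    (Away.isLocalizationElem (X_mem_gr j) hG)
  refine h3.trans ?_
  have h4 := awayHom_mk (cG s) u (X j) (isUnit_X (cG s) u hu) (X_mem_gr j) (d + 1)
    ((F * X j) ^ 1) (by rw [pow_one]; simpa using hG)
  rw [map_pow, map_mul, eval₂Hom_X', hu, one_pow, mul_one, mul_one, pow_one (eval₂Hom _ _ _)] at h4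
  exact congrArg T.basicOpen h4

theorem isUnit_eval₂_iff {R : Type*} [CommRing R] [IsLocalRing R] (c : ℂ →+* R) (v : ι → R)
    (p : ι → ℂ) (h : ∀ i, ¬ IsUnit (v i - c (p i))) (F : MvPolynomial ι ℂ) :
    IsUnit (eval₂Hom c v F) ↔ eval p F ≠ 0 := by
  have h1 : (fun i => IsLocalRing.residue R (v i)) =
      fun i => ((IsLocalRing.residue R).comp c) (p i) := funext fun i => by
    have := h i
    rwa [← IsLocalRing.residue_ne_zero_iff_isUnit, not_not, map_sub, sub_eq_zero] at this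
  have h2 := map_eval₂Hom (RingHom.id ℂ) p ((IsLocalRing.residue R).comp c) F
  rw [RingHom.comp_id] at h2
  rw [← IsLocalRing.residue_ne_zero_iff_isUnit, map_eval₂Hom, h1, ← h2, _root_.map_ne_zero]
  rfl

theorem eval_mul_ne {d : ℕ} {F : MvPolynomial ι ℂ} (hF : F ∈ gr ι d) (p : ι → ℂ) {t : ℂ}
    (ht : t ≠ 0) : eval (fun i => t * p i) F ≠ 0 ↔ eval p F ≠ 0 := by
  have h1 : eval (fun i => t * p i) F = t ^ d * eval p F :=
    eval₂_mul_of_mem (RingHom.id ℂ) p t hF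
  rw [h1, mul_ne_zero_iff, and_iff_right (pow_ne_zero d ht)]

variable {X : Scheme.{0}}

/-- The germ of a function on an open subscheme. -/
noncomputable def gU (U : X.Opens) (x : X) (hx : x ∈ U) :
    Γ(U.toScheme, ⊤) →+* X.presheaf.stalk x :=
  (X.presheaf.germ (U.ι ''ᵁ ⊤) x (by rw [Scheme.Opens.ι_image_top]; exact hx)).hom

/-- The germs of the constants. -/
noncomputable def cx (s : X ⟶ Spec (CommRingCat.of ℂ)) (x : X) : ℂ →+* X.presheaf.stalk x :=
  (X.presheaf.germ ⊤ x trivial).hom.comp (cG s)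

theorem gU_cG (s : X ⟶ Spec (CommRingCat.of ℂ)) (U : X.Opens) (x : X) (hx : x ∈ U) :
    (gU U x hx).comp (cG (U.ι ≫ s)) = cx s x := by
  ext c
  rw [RingHom.comp_apply, ← appTop_cG, gU, Scheme.Opens.ι_appTop]
  exact X.presheaf.germ_res_apply _ _ _ _

theorem mem_toP (s : X ⟶ Spec (CommRingCat.of ℂ)) (U : X.Opens) (x : X) (hx : x ∈ U) (j : ι)
    (u : ι → Γ(U.toScheme, ⊤)) (hu : u j = 1) {g : X ⟶ Pj ι}
    (hg : U.ι ≫ g = toP (U.ι ≫ s) j u hu) {d : ℕ} {F : MvPolynomial ι ℂ} (hF : F ∈ gr ι d) :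
    g x ∈ Proj.basicOpen (gr ι) F ↔
      IsUnit (eval₂Hom (cx s x) (fun i => gU U x hx (u i)) F) := by
  have h1 : g x ∈ Proj.basicOpen (gr ι) F ↔
      (⟨x, hx⟩ : U.toScheme) ∈ (U.ι ≫ g) ⁻¹ᵁ Proj.basicOpen (gr ι) F := Iff.rfl
  rw [h1, hg, toP_pre _ j u hu hF, Scheme.Opens.mem_basicOpen_toScheme, ← gU_cG s U x hx,
    ← map_eval₂Hom]
  exact Scheme.mem_basicOpen _ _ _ _

theorem exists_spread (x : X) (a : ι → X.presheaf.stalk x) :
    ∃ (U : X.Opens) (hx : x ∈ U) (u : ι → Γ(U.toScheme, ⊤)), ∀ i, gU U x hx (u i) = a i := by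
  choose V hV t ht using fun i => X.presheaf.exists_germ_eq (a i)
  let U : X.Opens := ⟨⋂ i, V i, isOpen_iInter_of_finite fun i => (V i).2⟩
  have hle : ∀ i, U.ι ''ᵁ ⊤ ≤ V i := fun i => by
    rw [Scheme.Opens.ι_image_top]
    exact Set.iInter_subset (fun i => (V i : Set X)) i
  refine ⟨U, Set.mem_iInter.2 hV, fun i => X.presheaf.map (homOfLE (hle i)).op (t i),
    fun i => ?_⟩
  rw [← ht i]
  exact X.presheaf.germ_res_apply _ _ _ _

variable [IsIntegral X]

/-- The rational function given by a germ. -/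
noncomputable def tK (x : X) : X.presheaf.stalk x →+* X.functionField :=
  (X.presheaf.stalkSpecializes ((genericPoint_spec X).specializes trivial)).hom

theorem tK_injective (x : X) : Function.Injective (tK x) :=
  IsFractionRing.injective (X.presheaf.stalk x) X.functionField

theorem gen_mem {U : X.Opens} {x : X} (hx : x ∈ U) : genericPoint X ∈ U :=
  gen_mem_of_nonempty U ⟨x, hx⟩

theorem tK_gU (U : X.Opens) (x : X) (hx : x ∈ U) (hU : genericPoint X ∈ U)
    (a : Γ(U.toScheme, ⊤)) : tK x (gU U x hx a) = toKU U hU a :=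
  X.presheaf.germ_stalkSpecializes_apply _ _ _

theorem toP_compat (s : X ⟶ Spec (CommRingCat.of ℂ)) {U U' : X.Opens}
    (hU : genericPoint X ∈ U) (hU' : genericPoint X ∈ U') {j j' : ι}
    {u : ι → Γ(U.toScheme, ⊤)} {u' : ι → Γ(U'.toScheme, ⊤)} (hu : u j = 1) (hu' : u' j' = 1)
    (h : ∀ i, toKU U hU (u j') * toKU U' hU' (u' i) = toKU U hU (u i))
    {T : Scheme.{0}} (g : T ⟶ U.toScheme) (g' : T ⟶ U'.toScheme) (hg : g ≫ U.ι = g' ≫ U'.ι) :
    g ≫ toP (U.ι ≫ s) j u hu = g' ≫ toP (U'.ι ≫ s) j' u' hu' := by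
  let W : X.Opens := U ⊓ U'
  have hW : genericPoint X ∈ W := ⟨hU, hU'⟩
  have hr : Set.range (g ≫ U.ι) ⊆ Set.range W.ι := by
    rintro _ ⟨t, rfl⟩
    rw [Scheme.Opens.range_ι]
    refine ⟨(g t).2, ?_⟩
    rw [hg]
    exact (g' t).2
  have hl := IsOpenImmersion.lift_fac W.ι (g ≫ U.ι) hr
  set l := IsOpenImmersion.lift W.ι (g ≫ U.ι) hr
  have e1 : g = l ≫ X.homOfLE (inf_le_left : W ≤ U) := by
    rw [← cancel_mono U.ι, Category.assoc, Scheme.homOfLE_ι, hl]
  have e2 : g' = l ≫ X.homOfLE (inf_le_right : W ≤ U') := by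
    rw [← cancel_mono U'.ι, Category.assoc, Scheme.homOfLE_ι, hl, hg]
  have e3 : X.homOfLE (inf_le_right : W ≤ U') ≫ U'.ι ≫ s =
      X.homOfLE (inf_le_left : W ≤ U) ≫ U.ι ≫ s := by
    rw [Scheme.homOfLE_ι_assoc, Scheme.homOfLE_ι_assoc]
  have e4 : X.homOfLE (inf_le_left : W ≤ U) ≫ toP (U.ι ≫ s) j u hu =
      X.homOfLE (inf_le_right : W ≤ U') ≫ toP (U'.ι ≫ s) j' u' hu' := by
    rw [comp_toP, comp_toP, e3]
    refine toP_change _ _ _ fun i => ?_
    refine toKU_injective W hW ?_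
    rw [map_mul, toKU_homOfLE, toKU_homOfLE, toKU_homOfLE]
    exact h i
  rw [e1, e2, Category.assoc, Category.assoc, e4]

theorem exists_glue {κ : Type} (U : κ → X.Opens) (hU : IsOpenCover U) {Y : Scheme.{0}}
    (f : ∀ k, (U k).toScheme ⟶ Y)
    (hf : ∀ k l, pullback.fst (U k).ι (U l).ι ≫ f k = pullback.snd (U k).ι (U l).ι ≫ f l) :
    ∃ g : X ⟶ Y, ∀ k, (U k).ι ≫ g = f k :=
  ⟨(X.openCoverOfIsOpenCover U hU).glueMorphisms f hf,
    (X.openCoverOfIsOpenCover U hU).ι_glueMorphisms f hf⟩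

theorem cover_ext {κ : Type} (U : κ → X.Opens) (hU : IsOpenCover U) {Y : Scheme.{0}}
    (f g : X ⟶ Y) (h : ∀ k, (U k).ι ≫ f = (U k).ι ≫ g) : f = g :=
  (X.openCoverOfIsOpenCover U hU).hom_ext f g h

/-- The rational function `f` is regular at `x` with the value `c`. -/
def Val (s : X ⟶ Spec (CommRingCat.of ℂ)) (f : X.functionField) (x : X) (c : ℂ) : Prop :=
  ∃ a : X.presheaf.stalk x, tK x a = f ∧ ¬ IsUnit (a - cx s x c)

theorem exists_chart (s : X ⟶ Spec (CommRingCat.of ℂ)) (φ : ι → X.functionField) (x : X)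
    (p : ι → ℂ) (hp : p ≠ 0) (c : X.functionField) (h : ∀ i, Val s (c * φ i) x (p i)) :
    ∃ (U : X.Opens) (hx : x ∈ U) (j : ι) (u : ι → Γ(U.toScheme, ⊤)), u j = 1 ∧ φ j ≠ 0 ∧
      (∀ i, toKU U (gen_mem hx) (u i) * φ j = φ i) ∧
      ∀ d, ∀ F ∈ gr ι d,
        (IsUnit (eval₂Hom (cx s x) (fun i => gU U x hx (u i)) F) ↔ eval p F ≠ 0) := by
  obtain ⟨j, hj⟩ := Function.ne_iff.1 hp
  choose a ha hv using h
  have hu : IsUnit (a j) := by
    have := (isUnit_eval₂_iff (cx s x) a p hv (MvPolynomial.X j)).2 (by simpa using hj)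
    rwa [eval₂Hom_X'] at this
  obtain ⟨b, hb⟩ := hu.exists_left_inv
  obtain ⟨U, hx, u, e⟩ := exists_spread x fun i => b * a i
  have hb' : tK x b * (c * φ j) = 1 := by rw [← ha, ← map_mul, hb, map_one]
  refine ⟨U, hx, j, u, toKU_injective U (gen_mem hx) ?_, ?_, fun i => ?_, fun d F hF => ?_⟩
  · rw [← tK_gU U x hx, e, hb, map_one, map_one]
  · exact right_ne_zero_of_mul (right_ne_zero_of_mul (hb' ▸ one_ne_zero))
  · rw [← tK_gU U x hx, e, map_mul, ha]
    linear_combination φ i * hb'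
  · rw [funext e, coe_eval₂Hom, eval₂_mul_of_mem _ _ _ hF, IsUnit.mul_iff,
      and_iff_right ((IsUnit.of_mul_eq_one _ hb).pow d)]
    exact isUnit_eval₂_iff (cx s x) a p hv F

/-- Rational functions without common zeros define a morphism to the projective space. -/
theorem exists_hom [CompactSpace X] (s : X ⟶ Spec (CommRingCat.of ℂ))
    (φ : ι → X.functionField) (p : closedPoints X → ι → ℂ) (hp : ∀ x, p x ≠ 0)
    (h : ∀ x : closedPoints X, ∃ c, ∀ i, Val s (c * φ i) x.1 (p x i)) :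
    ∃ g : X ⟶ Pj ι, g ≫ str ι = s ∧ ∀ x : closedPoints X, ∀ d, ∀ F ∈ gr ι d,
      (g x.1 ∈ Proj.basicOpen (gr ι) F ↔ eval (p x) F ≠ 0) := by
  choose c hc using h
  choose U hx j u hu h0 hm hv using fun x => exists_chart s φ x.1 (p x) (hp x) (c x) (hc x)
  have hU : IsOpenCover U := by
    refine IsOpenCover.mk (top_le_iff.1 fun y _ => ?_)
    obtain ⟨x, hxy, hcl⟩ := (isClosed_closure (s := {y})).exists_closed_singleton
      ⟨y, subset_closure rfl⟩
    exact Opens.mem_iSup.2 ⟨⟨x, hcl⟩,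
      (specializes_iff_mem_closure.2 hxy).mem_open (U _).2 (hx ⟨x, hcl⟩)⟩
  have hf : ∀ x y, pullback.fst (U x).ι (U y).ι ≫ toP ((U x).ι ≫ s) (j x) (u x) (hu x) =
      pullback.snd (U x).ι (U y).ι ≫ toP ((U y).ι ≫ s) (j y) (u y) (hu y) := fun x y =>
    toP_compat s (gen_mem (hx x)) (gen_mem (hx y)) (hu x) (hu y) (fun i => by
      refine mul_right_cancel₀ (h0 x) ?_
      rw [hm x i, mul_right_comm, hm x, mul_comm, hm y]) _ _ pullback.condition
  obtain ⟨g, hg⟩ := exists_glue U hU (fun x => toP ((U x).ι ≫ s) (j x) (u x) (hu x)) hf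
  refine ⟨g, cover_ext U hU _ _ fun x => ?_, fun x d F hF => ?_⟩
  · rw [← Category.assoc, hg x]
    exact toP_str _ _ _ _
  · exact (mem_toP s (U x) x.1 (hx x) (j x) (u x) (hu x) (hg x) hF).trans (hv x d F hF)

/-- A morphism to the projective space is given by rational functions. -/
theorem exists_rat (s : X ⟶ Spec (CommRingCat.of ℂ)) (g : X ⟶ Pj ι) (hs : g ≫ str ι = s) :
    ∃ φ : ι → X.functionField, ∀ (x : X) (p : ι → ℂ),
      (∀ F ∈ gr ι 1, g x ∈ Proj.basicOpen (gr ι) F → eval p F ≠ 0) →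
      ∃ c, ∀ i, Val s (c * φ i) x (p i) := by
  obtain ⟨j₀, h₀⟩ := exists_mem_ch g (genericPoint X)
  refine ⟨kap g s hs j₀ h₀, fun x p hp => ?_⟩
  obtain ⟨j, hj⟩ := exists_mem_ch g x
  refine ⟨tK x (cx s x (p j)) * kap g s hs j (gen_mem hj) j₀, fun i =>
    ⟨cx s x (p j) * gU _ x hj (coord g s hs j i), ?_, fun hu => ?_⟩⟩
  · rw [mul_assoc, kap_mul, map_mul, tK_gU]
    rfl
  · have hF : C (p j) * MvPolynomial.X i - C (p i) * MvPolynomial.X j ∈ gr ι 1 := by
      rw [C_mul', C_mul']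
      exact sub_mem (Submodule.smul_mem _ _ (X_mem_gr i)) (Submodule.smul_mem _ _ (X_mem_gr j))
    refine hp _ hF ((mem_toP s _ x hj j _ _ (coord_spec g s hs j) hF).2 ?_) ?_
    · rw [map_sub, map_mul, map_mul, eval₂Hom_C, eval₂Hom_C, eval₂Hom_X', eval₂Hom_X', coord_self,
        map_one, mul_one]
      exact hu
    · simp [mul_comm]

end Vale.Agent.P297G93.W
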