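import Vale.Agent.P299.S.Defs
import Mathlib.AlgebraicGeometry.ProjectiveSpectrum.Basic
import Mathlib.RingTheory.MvPolynomial.Homogeneous
import Vale.Agent.P299.Q.Hartogs
import Vale.Agent.P299.Q.Smooth

/-!
# The hyperplane section of a smooth projective variety is an ample divisor
-/

open CategoryTheory AlgebraicGeometry TopologicalSpace Order

namespace Vale.Agent.P297G93

open Vale.Agent.P299 Vale.Agent.P299.G

attribute [local instance] MvPolynomial.gradedAlgebra

/-- An ample divisor from an affine cover and homogeneous coordinates. -/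
theorem amp_of_coord (X : S.PVar) {ι : Type} [Finite ι] (U : ι → X.X.Opens)
    (hU : ∀ i, IsAffineOpen (U i)) (hc : ∀ x : X.X, ∃ i, x ∈ U i) (t : ι → X.X.functionField)
    (h0 : ∀ i, ∀ x ∈ U i, t i ≠ 0)
    (hr : ∀ i k, ∀ x ∈ U i, ∃ a : X.X.presheaf.stalk x, t k = t i * toK x a ∧
      (IsUnit a ↔ x ∈ U k)) : ∃ A : S.Div X, S.IsAmple A := by
  have hreg : ∀ y : X.X, coheight y = 1 → IsDiscreteValuationRing (X.X.presheaf.stalk y) := by
    let _ : X.X.Over Q.SpecC := ⟨X.str⟩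
    have : Smooth (X.X ↘ Q.SpecC) := X.smooth
    exact Q.dvr_of_normal (Q.isIntegrallyClosed_stalk_of_smooth X.X)
  have : CompactSpace S.SpecC := inferInstanceAs (CompactSpace (Spec (CommRingCat.of ℂ)))
  have : CompactSpace X.X := QuasiCompact.compactSpace_of_compactSpace X.str
  have : IsNoetherian X.X := {}
  choose c hc using hc
  have hfin : (⋃ i, {x : X.X | Scheme.ord (t i) x ≠ 0}).Finite :=
    Set.finite_iUnion fun i => by
      by_cases h : t i = 0
      · simp [h, Scheme.ord_zero]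
      · exact finite_ord_ne_zero _ h
  let A : S.Div X := Finsupp.ofSupportFinite
    (fun y => -Scheme.ord (X := X.X) (t (c y.1)) y.1)
    ((hfin.preimage (f := fun y : {x : S.Pt X.X // S.codim x = 1} => (y.1 : X.X))
      Subtype.val_injective.injOn).subset fun y hy =>
        Set.mem_iUnion.2 ⟨c y.1, neg_ne_zero.1 hy⟩)
  have hord : ∀ i k, ∀ y x : X.X, y ⤳ x → ∀ a : X.X.presheaf.stalk x, t k ≠ 0 →
      t k = t i * toK x a → Scheme.ord (t k) y = Scheme.ord (t i) y + Scheme.ord (toK x a) y :=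
    fun i k y x _ a h e => by
      rw [e] at h ⊢
      exact Scheme.ord_mul (left_ne_zero_of_mul h) (right_ne_zero_of_mul h)
  have hA : ∀ i, ∀ y ∈ U i, coheight y = 1 →
      S.coef (1 • A) y = -Scheme.ord (t i) y := fun i y hy h1 => by
    obtain ⟨a, e, ha⟩ := hr (c y) i y (hc y)
    rw [hord _ _ y y specializes_rfl a (h0 i y hy) e, ord_toK_of_isUnit (ha.2 hy), add_zero,
      one_smul]
    exact dif_pos h1
  refine ⟨A, fun x => ⟨1, t (c x), U (c x), one_pos, fun y hy hne => ?_, hU _, hc x,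
    fun y => ⟨fun hy => ⟨h0 _ y hy, fun z hz hzy => ?_⟩, fun ⟨hne, h⟩ => ?_⟩⟩⟩
  · obtain ⟨a, e, -⟩ := hr (c y) (c x) y (hc y)
    have h1 := hord _ _ y y specializes_rfl a hne e
    have h2 := ord_toK_nonneg a
    rw [hA _ y (hc y) hy]
    change 0 ≤ Scheme.ord (X := X.X) (t (c x)) y + _
    omega
  · rw [hA (c x) z (Specializes.mem_open hzy (U _).2 hy) hz]
    exact add_neg_cancel _
  · obtain ⟨a, e, ha⟩ := hr (c y) (c x) y (hc y)
    by_contra hy
    have ha0 : a ≠ 0 := by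
      rintro rfl
      exact hne (by rw [e, map_zero, mul_zero]; rfl)
    obtain ⟨z, hzy, hz, hm⟩ := Q.exists_codim_one_of_mem ha0 fun hu => hy (ha.1 hu)
    have h1 := one_le_ord_of_mem hreg hzy hz hm ha0
    have h2 := hord _ _ z y hzy a hne e
    have h3 := h z hz hzy
    rw [hA (c y) z (hzy.mem_open (U _).2 (hc y)) hz] at h3
    change Scheme.ord (X := X.X) (t (c x)) z + _ = 0 at h3
    omega

/-- An ample divisor from an affine cover and a cocycle of sections. -/
theorem amp_of_sec (X : S.PVar) {ι : Type} [Finite ι] (U : ι → X.X.Opens)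
    (hU : ∀ i, IsAffineOpen (U i)) (hc : ∀ x : X.X, ∃ i, x ∈ U i) (s : ∀ i, ι → Γ(X.X, U i))
    (hu : ∀ i k x (h : x ∈ U i), IsUnit (X.X.presheaf.germ _ x h (s i k)) ↔ x ∈ U k)
    (hm : ∀ i k l x (h : x ∈ U i) (h' : x ∈ U k), X.X.presheaf.germ _ x h (s i l) =
      X.X.presheaf.germ _ x h (s i k) * X.X.presheaf.germ _ x h' (s k l)) :
    ∃ A : S.Div X, S.IsAmple A := by
  obtain ⟨i₀, h₀⟩ := hc (genericPoint X.X)
  have hg : ∀ i, ∀ x ∈ U i, genericPoint X.X ∈ U i := fun i x hx =>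
    ((genericPoint_spec X.X).specializes trivial).mem_open (U i).2 hx
  refine amp_of_coord X U hU hc (fun k => X.X.presheaf.germ _ _ h₀ (s i₀ k))
    (fun i x hx => ((hu i₀ i _ h₀).2 (hg i x hx)).ne_zero)
    fun i k x hx => ⟨X.X.presheaf.germ _ x hx (s i k), ?_, hu i k x hx⟩
  refine (hm i₀ i k _ h₀ (hg i x hx)).trans (congrArg _ ?_)
  exact (X.X.presheaf.germ_stalkSpecializes_apply hx
    ((genericPoint_spec X.X).specializes trivial) _).symm

section Proj

open HomogeneousLocalization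

variable {A : Type} [CommRing A] {σ : Type} [SetLike σ A] [AddSubgroupClass σ A] (𝒜 : ℕ → σ)
  [GradedRing 𝒜] {f g h : A} (hf : f ∈ 𝒜 1) (hg : g ∈ 𝒜 1) (hh : h ∈ 𝒜 1)

/-- The function `g / f` on `D₊(f)`. -/
noncomputable def frac : Γ(Proj 𝒜, Proj.basicOpen 𝒜 f) :=
  Proj.awayToSection 𝒜 f (Away.mk 𝒜 hf 1 g (by simpa using hg))

theorem val_germ_frac (p : Proj 𝒜) (hp : p ∈ Proj.basicOpen 𝒜 f) :
    (Proj.stalkIso' 𝒜 p ((Proj 𝒜).presheaf.germ _ p hp (frac 𝒜 hf hg))).val =
      Localization.mk g ⟨f, hp⟩ := by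
  have h1 := ProjectiveSpectrum.Proj.awayToSection_apply 𝒜 f
    (Away.mk 𝒜 hf 1 g (by simpa using hg)) ⟨p, hp⟩
  rw [Away.val_mk, Localization.mk_eq_mk', IsLocalization.map_mk'] at h1
  refine (congrArg HomogeneousLocalization.val (Proj.stalkIso'_germ 𝒜 _ p hp _)).trans
    (h1.trans ?_)
  rw [Localization.mk_eq_mk']
  congr 1
  exact Subtype.ext (pow_one f)

theorem isUnit_germ_frac (p : Proj 𝒜) (hp : p ∈ Proj.basicOpen 𝒜 f) :
    IsUnit ((Proj 𝒜).presheaf.germ _ p hp (frac 𝒜 hf hg)) ↔ p ∈ Proj.basicOpen 𝒜 g := by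
  refine (MulEquiv.isUnit_map (f := Proj.stalkIso' 𝒜 p)).symm.trans ?_
  rw [← isUnit_iff_isUnit_val, val_germ_frac, Localization.mk_eq_mk',
    IsLocalization.AtPrime.isUnit_mk'_iff]
  rfl

theorem germ_frac_mul (p : Proj 𝒜) (hp : p ∈ Proj.basicOpen 𝒜 f) (hq : p ∈ Proj.basicOpen 𝒜 g) :
    (Proj 𝒜).presheaf.germ _ p hp (frac 𝒜 hf hh) =
      (Proj 𝒜).presheaf.germ _ p hp (frac 𝒜 hf hg) *
        (Proj 𝒜).presheaf.germ _ p hq (frac 𝒜 hg hh) := by
  refine (Proj.stalkIso' 𝒜 p).injective (val_injective _ ?_)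
  refine Eq.trans ?_ (congrArg val (map_mul (Proj.stalkIso' 𝒜 p) _ _)).symm
  rw [val_mul, val_germ_frac, val_germ_frac, val_germ_frac, Localization.mk_mul,
    Localization.mk_eq_mk_iff, Localization.r_iff_exists]
  exact ⟨1, by simp only [OneMemClass.coe_one, Submonoid.coe_mul]; ring⟩

end Proj

theorem cover (ι : Type) (p : Proj (MvPolynomial.homogeneousSubmodule ι ℂ)) :
    ∃ i, p ∈ Proj.basicOpen (MvPolynomial.homogeneousSubmodule ι ℂ) (MvPolynomial.X i) := by
  have h : Algebra.adjoin (MvPolynomial.homogeneousSubmodule ι ℂ 0)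
      (Set.range (MvPolynomial.X : ι → MvPolynomial ι ℂ)) = ⊤ := by
    refine top_le_iff.1 fun a _ => ?_
    induction a using MvPolynomial.induction_on with
    | C c => exact Subalgebra.algebraMap_mem _ (⟨_, MvPolynomial.isHomogeneous_C ι c⟩ :
        MvPolynomial.homogeneousSubmodule ι ℂ 0)
    | add a b ha hb => exact add_mem (ha trivial) (hb trivial)
    | mul_X a i ha => exact mul_mem (ha trivial) (Algebra.subset_adjoin ⟨i, rfl⟩)
  have h2 := Proj.iSup_basicOpen_eq_top' (MvPolynomial.homogeneousSubmodule ι ℂ) MvPolynomial.X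
    (fun i => ⟨1, MvPolynomial.isHomogeneous_X ℂ i⟩) h
  exact Opens.mem_iSup.1 (h2.ge trivial)

/-- A smooth variety with an affine morphism to a projective space has an ample divisor. -/
theorem amp_of_affine (X : S.PVar) {ι : Type} [Finite ι]
    (j : X.X ⟶ Proj (MvPolynomial.homogeneousSubmodule ι ℂ)) [IsAffineHom j] :
    ∃ A : S.Div X, S.IsAmple A := by
  have hX := fun i : ι => (MvPolynomial.mem_homogeneousSubmodule 1 _).2
    (MvPolynomial.isHomogeneous_X ℂ i)
  refine amp_of_sec X (fun i => j ⁻¹ᵁ Proj.basicOpen _ (MvPolynomial.X i))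
    (fun i => (Proj.isAffineOpen_basicOpen _ _ (hX i) one_pos).preimage j)
    (fun x => cover ι (j x)) (fun i k => j.app _ (frac _ (hX i) (hX k)))
    (fun i k x h => ?_) fun i k l x h h' => ?_
  · rw [← j.germ_stalkMap_apply _ x h, isUnit_map_iff]
    exact isUnit_germ_frac _ (hX i) (hX k) _ h
  · rw [← j.germ_stalkMap_apply _ x h, ← j.germ_stalkMap_apply _ x h,
      ← j.germ_stalkMap_apply _ x h', ← map_mul]
    exact congrArg _ (germ_frac_mul _ (hX i) (hX k) (hX l) _ h h')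

end Vale.Agent.P297G93
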