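import Vale.Agent.P297L93.Mor
import Vale.Agent.P297M75.Defs

/-!
# Morphisms to abelian varieties and the Albanese morphism, in the two languages
-/

namespace Vale.Agent.P297G93

open Vale.Agent.P299 Vale.Agent.P009.AV

theorem mor (X : S.PVar) {ι : Type} [Fintype ι] (A : AbVar ℂ ι)
    (a : closedPoints X.X → A.G) : P297M.Mor X.str A a ↔ P297Y.Mor X A a :=
  (mor_iff X A a).symm

theorem isAlb (X : S.PVar) (x₀ : closedPoints X.X) {ι : Type} [Fintype ι] (A : AbVar ℂ ι)
    (a : closedPoints X.X → A.G) : P297M.IsAlb X.str x₀ A a ↔ P297Y.IsAlb X x₀ A a :=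
  and_congr (mor X A a) (and_congr_right' (forall_congr' fun _ => forall_congr' fun _ =>
    forall_congr' fun B => forall_congr' fun b => imp_congr_left (mor X B b)))

end Vale.Agent.P297G93
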