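import Vale.Agent.P297L93.Mor1
import Vale.Agent.P297Y.AJ.Stmt

/-!
# The two definitions of a morphism to an abelian variety agree
-/

set_option linter.all false

open CategoryTheory AlgebraicGeometry

namespace Vale.Agent.P297G93

open Vale.Agent.P299 Vale.Agent.P009.AV W

attribute [local instance] MvPolynomial.gradedAlgebra

theorem tK_cx (X : S.PVar) (x : X.X) (c : ℂ) : tK x (cx X.str x c) = S.cst X c :=
  X.X.presheaf.germ_stalkSpecializes_apply (U := ⊤) trivial _ _

theorem van_tK (X : S.PVar) (x : X.X) (a : X.X.presheaf.stalk x) :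
    S.Van (X := X) (tK x a) x ↔ ¬ IsUnit a := by
  refine ⟨fun ⟨_, h⟩ hu => ?_, fun h => ⟨⟨a, rfl⟩, ?_⟩⟩
  · obtain ⟨b, hb⟩ := hu.exists_left_inv
    have h1 : tK x b * tK x a = 1 := by rw [← map_mul, hb, map_one]
    refine h.elim (right_ne_zero_of_mul (h1 ▸ one_ne_zero)) fun h => h ⟨b, ?_⟩
    exact (eq_inv_of_mul_eq_one_left h1 : tK x b = (tK x a)⁻¹)
  · refine or_iff_not_imp_left.2 fun h0 hb => ?_
    obtain ⟨b, hb'⟩ : ∃ b, tK x b = (tK x a)⁻¹ := hb
    refine h (IsUnit.of_mul_eq_one b (tK_injective x ?_))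
    rw [map_mul, map_one, hb']
    exact mul_inv_cancel₀ h0

theorem hasValue_iff (X : S.PVar) (f : X.X.functionField) (x : X.X) (c : ℂ) :
    S.HasValue (X := X) f x c ↔ Val X.str f x c := by
  refine ⟨fun h => ?_, fun ⟨a, ha, h⟩ => ?_⟩
  · obtain ⟨a, ha'⟩ : ∃ a, tK x a = f - tK x (cx X.str x c) := by rw [tK_cx]; exact h.1
    refine ⟨a + cx X.str x c, by rw [map_add, ha', sub_add_cancel], ?_⟩
    rw [add_sub_cancel_right, ← van_tK, ha', tK_cx]
    exact h
  · rw [← van_tK, map_sub, ha, tK_cx] at h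
    exact h

/-- A map from the closed points to the projective space is given by rational functions if and
only if it is given by a morphism of schemes over `ℂ`. -/
theorem rat_iff_hom (X : S.PVar) {ι : Type} [Fintype ι] (q : closedPoints X.X → PP ℂ ι) :
    (∃ φ : ι → S.K X, ∀ x : closedPoints X.X, ∃ c : S.K X, ∀ i,
      S.HasValue (c * φ i) x.1 ((q x).rep i)) ↔
    ∃ g : X.X ⟶ Proj (MvPolynomial.homogeneousSubmodule ι ℂ),
      g ≫ Proj.toSpecZero _ ≫ Spec.map (CommRingCat.ofHom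
        (algebraMap ℂ (MvPolynomial.homogeneousSubmodule ι ℂ 0))) = X.str ∧
      ∀ x : closedPoints X.X, ∀ d : ℕ, ∀ F ∈ MvPolynomial.homogeneousSubmodule ι ℂ d,
        g x.1 ∈ Proj.basicOpen (MvPolynomial.homogeneousSubmodule ι ℂ) F ↔
          MvPolynomial.eval (q x).rep F ≠ 0 := by
  have : CompactSpace S.SpecC := inferInstanceAs (CompactSpace (Spec (CommRingCat.of ℂ)))
  have : CompactSpace X.X := QuasiCompact.compactSpace_of_compactSpace X.str
  refine ⟨fun ⟨φ, h⟩ => exists_hom X.str φ (fun x => (q x).rep) (fun x => (q x).rep_nonzero)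
    fun x => (h x).imp fun c hc i => (hasValue_iff X _ _ _).1 (hc i), fun ⟨g, hs, h⟩ => ?_⟩
  obtain ⟨φ, hφ⟩ := exists_rat X.str g hs
  exact ⟨φ, fun x => (hφ x.1 (q x).rep fun F hF => (h x 1 F hF).1).imp
    fun c hc i => (hasValue_iff X _ _ _).2 (hc i)⟩

/-- The two definitions of a morphism to an abelian variety agree. -/
theorem mor_iff (X : S.PVar) {ι : Type} [Fintype ι] (A : AbVar ℂ ι)
    (a : closedPoints X.X → A.G) :
    P297Y.Mor X A a ↔
    ∃ g : X.X ⟶ Proj (MvPolynomial.homogeneousSubmodule ι ℂ),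
      g ≫ Proj.toSpecZero _ ≫ Spec.map (CommRingCat.ofHom
        (algebraMap ℂ (MvPolynomial.homogeneousSubmodule ι ℂ 0))) = X.str ∧
      ∀ x : closedPoints X.X, ∀ d : ℕ, ∀ F ∈ MvPolynomial.homogeneousSubmodule ι ℂ d,
        g x.1 ∈ Proj.basicOpen (MvPolynomial.homogeneousSubmodule ι ℂ) F ↔
          MvPolynomial.eval (A.emb (a x)).rep F ≠ 0 :=
  rat_iff_hom X fun x => A.emb (a x)

end Vale.Agent.P297G93
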